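import Vale.Agent.P184.NonUnipotent
import Vale.Agent.P184.Means

namespace Vale.Agent.Results.P184.NonQuasiUnipotent

open Vale.Agent.P184

/-- The `ℓ¹` trace of an idempotent matrix vanishes at classes carrying a bounded equivariant
height, at classes which some linear representation over some field does not send to quasi-unipotent
matrices, hence at all infinite-order classes of linear groups in positive characteristic, and at
classes of positive translation length with commutative or virtually cyclic centraliser. -/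
theorem result :
    (∀ (G : Type) [Group G] (g : G) (F : G → ℝ),
      (∀ b : G, ∃ C : ℝ, ∀ k : G, |F (k * b) - F k| ≤ C) →
      (∀ z k : G, z * g = g * z → F (z * k) - F k = F z - F 1) →
      F g ≠ F 1 →
      ∀ (q : ℕ) (e : Fin q → Fin q → G → ℂ), IsIdem e → traceAt e g = 0) ∧
    (∀ (G : Type) [Group G] (g : G) (K : Type) [Field K] (n : ℕ)
      (ρ : G →* Matrix (Fin n) (Fin n) K),
      (∀ m : ℕ, 0 < m → ¬IsNilpotent (ρ g ^ m - 1)) →
      ∀ (q : ℕ) (e : Fin q → Fin q → G → ℂ), IsIdem e → traceAt e g = 0) ∧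
    (∀ (G : Type) [Group G] (K : Type) [Field K] (p : ℕ) [CharP K p] (n : ℕ)
      (ρ : G →* Matrix (Fin n) (Fin n) K),
      p.Prime → Function.Injective ρ →
      ∀ (q : ℕ) (e : Fin q → Fin q → G → ℂ), IsIdem e →
        (∀ g : G, ¬IsOfFinOrder g → traceAt e g = 0) ∧
        ((∃ s : Finset G, ∀ g : G, IsOfFinOrder g → ∃ f ∈ s, IsConj f g) →
          ∃ F : Finset G, (∀ f ∈ F, IsOfFinOrder f) ∧
            ∀ g : G, traceAt e g ≠ 0 → ∃ f ∈ F, IsConj f g)) ∧
    (∀ (G : Type) [Group G] (g : G) (ℓ : G → ℝ) (c : ℝ),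
      (∀ a b : G, ℓ (a * b) ≤ ℓ a + ℓ b) → (∀ a : G, ℓ a⁻¹ = ℓ a) →
      0 < c → (∀ n : ℕ, c * n ≤ ℓ (g ^ n)) →
      ((∀ a b : G, a * g = g * a → b * g = g * b → a * b = b * a) ∨
        ((Subgroup.zpowers g).subgroupOf (Subgroup.centralizer {g})).FiniteIndex) →
      ∀ (q : ℕ) (e : Fin q → Fin q → G → ℂ), IsIdem e → traceAt e g = 0) := by
  refine ⟨fun G _ g F h1 h2 h3 q e he => traceAt_eq_zero_of_height he g F h1 h2 h3,
    fun G _ g K _ n ρ hg q e he => traceAt_eq_zero_of_not_quasiUnipotent ρ hg he, ?_,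
    fun G _ g ℓ c hadd hinv hc hg hcen q e he => hcen.elim
      (fun h => traceAt_eq_zero_of_translation he g ℓ hadd hinv hc hg (hasCentralMean_of_comm g h))
      fun h => traceAt_eq_zero_of_finiteIndex he g ℓ hadd hinv hc hg h⟩
  intro G _ K _ p _ n ρ hp hρ q e he
  have hprime : Fact p.Prime := ⟨hp⟩
  have hvan : ∀ g : G, ¬IsOfFinOrder g → traceAt e g = 0 := fun g hg =>
    traceAt_eq_zero_of_not_quasiUnipotent ρ (not_quasiUnipotent p ρ hρ hg) he
  refine ⟨hvan, fun ⟨s, hs⟩ => ?_⟩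
  classical
  refine ⟨s.filter IsOfFinOrder, fun f hf => (Finset.mem_filter.1 hf).2, fun g hg => ?_⟩
  have hfin : IsOfFinOrder g := not_not.1 fun h => hg (hvan g h)
  obtain ⟨f, hf, hconj⟩ := hs g hfin
  obtain ⟨c, hc⟩ := isConj_iff.1 hconj
  refine ⟨f, Finset.mem_filter.2 ⟨hf, ?_⟩, hconj⟩
  have h1 : IsOfFinOrder (c * f * c⁻¹) := hc ▸ hfin
  have h2 := (MulAut.conj c⁻¹).toMonoidHom.isOfFinOrder h1
  simpa [mul_assoc] using h2

end Vale.Agent.Results.P184.NonQuasiUnipotent
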